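import Vale.Agent.P075.Defs

/-!
# P075 (dyadic triangular Hilbert transform) : skeleton
-/

namespace P075.Skel

open Matrix Finset

variable {m n : Type} [Fintype m] [DecidableEq m] [Fintype n] [DecidableEq n]

/-! ## Module A (Basic.lean) -/

theorem rt_posSemidef (X : Matrix n n ℝ) : (rt X).PosSemidef := by
  sorry

theorem rt_mul_rt {X : Matrix n n ℝ} (hX : X.PosSemidef) : rt X * rt X = X := by
  sorry

theorem trace_mul_nonneg {X Y : Matrix n n ℝ} (hX : X.PosSemidef) (hY : Y.PosSemidef) :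
    0 ≤ (X * Y).trace := by
  sorry

theorem trace_mul_le {X Y Z : Matrix n n ℝ} (hX : X.PosSemidef) (hYZ : (Z - Y).PosSemidef) :
    (X * Y).trace ≤ (X * Z).trace := by
  sorry

/-- `2 s³ + z³ - 3 s² z` has the trace of `(s - z) (2 s + z) (s - z)` -/
theorem young {s z : Matrix n n ℝ} (hs : s.PosSemidef) (hz : z.PosSemidef) :
    3 * (s * s * z).trace ≤ 2 * (s * s * s).trace + (z * z * z).trace := by
  sorry

theorem phi_nonneg (X : Matrix n n ℝ) : 0 ≤ phi X := by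
  sorry

theorem phi_sq {s : Matrix n n ℝ} (hs : s.PosSemidef) : phi (s * s) = (s * s * s).trace := by
  sorry

theorem phi_mono {X Y : Matrix n n ℝ} (hX : X.PosSemidef) (hXY : (Y - X).PosSemidef) :
    phi X ≤ phi Y := by
  sorry

theorem phi_smul {X : Matrix n n ℝ} (hX : X.PosSemidef) {c : ℝ} (hc : 0 ≤ c) :
    phi ((c * c) • X) = c ^ 3 * phi X := by
  sorry

/-! ## Module B (Polar.lean) -/

theorem polar (Y : Matrix n m ℝ) :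
    ∃ J : Matrix m n ℝ, J * Y = rt (Yᵀ * Y) ∧ Jᵀ * rt (Yᵀ * Y) = Y := by
  sorry

theorem phi_comm (Y : Matrix n m ℝ) : phi (Y * Yᵀ) = phi (Yᵀ * Y) := by
  sorry

/-! ## Module C (Key.lean) -/

theorem key {p q y : Matrix n n ℝ} (hp : p.PosSemidef) (hq : q.PosSemidef) (hy : y.PosSemidef)
    (h : (2 : ℝ) • (y * y) = p * p + q * q) :
    2 * (y * y * y).trace + 3 / 16 * ((p + q) * (p - q) * (p - q)).trace ≤
      (p * p * p).trace + (q * q * q).trace := by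
  sorry

/-! ## Module D (Block.lean) -/

theorem sq_le {A X : Matrix n n ℝ} (hA : A.IsHermitian) (hX : X.PosSemidef)
    (h : (X * X - A * A).PosSemidef) : (X - A).PosSemidef := by
  sorry

theorem base_trace {A B C x₀ x₁ : Matrix n n ℝ} (hx₀ : x₀.PosSemidef) (hx₁ : x₁.PosSemidef)
    (h₁ : (x₁ * x₁ - Aᵀ * A).PosSemidef) (h₀ : (x₀ * x₀ - A * Aᵀ).PosSemidef) :
    2 * |(A * B * C).trace| ≤ (x₁ * (B * Bᵀ)).trace + (x₀ * (Cᵀ * C)).trace := by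
  sorry

theorem absd {p q : Matrix n n ℝ} (hp : p.PosSemidef) (hq : q.PosSemidef) :
    phi ((p - q) * (p - q)) ≤ ((p + q) * (p - q) * (p - q)).trace := by
  sorry

/-! ## Module E (Vertex.lean), uses A, B, C -/

theorem vertex_ineq (A B : Fin 2 → Fin 2 → Matrix n n ℝ) :
    ve (big A) (big B) + 1 / 4 * vd A B ≤ 2 * ∑ a, ∑ b, ve (A a b) (B b (a + b)) := by
  sorry

/-! ## Module F (Gauge.lean), uses B -/

theorem gauge (A B C : Fin 2 → Fin 2 → Matrix n n ℝ) :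
    ∃ A' B' C' : Fin 2 → Fin 2 →
        Matrix ((Fin 2 × n) ⊕ (Fin 2 × n)) ((Fin 2 × n) ⊕ (Fin 2 × n)) ℝ,
      (∀ a b c, (A' a b * B' b c * C' c a).trace = (A a b * B b c * C c a).trace) ∧
      (∀ b b', ∑ a, (A' a b)ᵀ * A' a b' + ∑ c, B' b c * (B' b' c)ᵀ =
        vp A B b * vp A B b') ∧
      (∀ c c', ∑ b, (B' b c)ᵀ * B' b c' + ∑ a, C' c a * (C' c' a)ᵀ =
        vp B C c * vp B C c') ∧
      (∀ a a', ∑ c, (C' c a)ᵀ * C' c a' + ∑ b, A' a b * (A' a' b)ᵀ =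
        vp C A a * vp C A a') := by
  sorry

/-! ## Module G (Gain.lean), uses A, B (phi_comm), D -/

theorem gain_bound {A B C : Fin 2 → Fin 2 → Matrix n n ℝ} {p q r : Fin 2 → Matrix n n ℝ}
    (hp : ∀ b, (p b).PosSemidef) (hq : ∀ b, (q b).PosSemidef) (hr : ∀ b, (r b).PosSemidef)
    (h₁ : ∀ b b', ∑ a, (A a b)ᵀ * A a b' + ∑ c, B b c * (B b' c)ᵀ = p b * p b')
    (h₂ : ∀ c c', ∑ b, (B b c)ᵀ * B b c' + ∑ a, C c a * (C c' a)ᵀ = q c * q c')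
    (h₀ : ∀ a a', ∑ c, (C c a)ᵀ * C c a' + ∑ b, A a b * (A a' b)ᵀ = r a * r a') :
    |gain A B C| ≤ 4 * (((p 0 + p 1) * (p 0 - p 1) * (p 0 - p 1)).trace +
      ((q 0 + q 1) * (q 0 - q 1) * (q 0 - q 1)).trace +
      ((r 0 + r 1) * (r 0 - r 1) * (r 0 - r 1)).trace) := by
  sorry

/-! ## Module H (Local.lean), uses E, F, G -/

theorem local_ineq (A B C : Fin 2 → Fin 2 → Matrix n n ℝ) :
    en (big A) (big B) (big C) + 1 / 16 * |gain A B C| ≤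
      2 * ∑ a, ∑ b, en (A a b) (B b (a + b)) (C (a + b) a) := by
  sorry

/-! ## Module T (Tree.lean), uses A, H -/

theorem tree (N : ℕ) (F₀ F₁ F₂ : ℕ → ℕ → ℝ) :
    ∑ k ∈ range N, ∑ i ∈ range (2 ^ (N - (k + 1))), ∑ j ∈ range (2 ^ (N - (k + 1))),
      |Ld k F₀ F₁ F₂ i j (i ^^^ j)| ≤
      48 * ∑ i ∈ range (2 ^ N), ∑ j ∈ range (2 ^ N),
        (|F₀ i j| ^ 3 + |F₁ i j| ^ 3 + |F₂ i j| ^ 3) := by
  sorry

/-! ## Module M (Transfer.lean), uses T -/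

/-- the form `L` is an average of discrete forms -/
theorem L_eq (m : ℤ) (k : ℕ) (n : ℕ × ℕ × ℕ) {F₀ F₁ F₂ : ℝ × ℝ → ℝ} (h₀ : Measurable F₀)
    (h₁ : Measurable F₁) (h₂ : Measurable F₂) {K : ℝ} (b₀ : ∀ x, |F₀ x| ≤ K)
    (b₁ : ∀ x, |F₁ x| ≤ K) (b₂ : ∀ x, |F₂ x| ≤ K) :
    L (m + (k + 1)) n F₀ F₁ F₂ = ((2 : ℝ) ^ m) ^ 2 *
      ∫ t in Set.Ico (0 : ℝ) 1 ×ˢ Set.Ico (0 : ℝ) 1 ×ˢ Set.Ico (0 : ℝ) 1,
        Ld k (fun p q => F₀ ((2 : ℝ) ^ m * (p + t.1), (2 : ℝ) ^ m * (q + t.2.1)))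
          (fun p q => F₁ ((2 : ℝ) ^ m * (p + t.2.1), (2 : ℝ) ^ m * (q + t.2.2)))
          (fun p q => F₂ ((2 : ℝ) ^ m * (p + t.2.2), (2 : ℝ) ^ m * (q + t.1)))
          n.1 n.2.1 n.2.2 := by
  sorry

/-- the sum over the cells is at most the cube of the norm -/
theorem cube_ge (m : ℤ) (M : ℕ) {F : ℝ × ℝ → ℝ} (hF : Measurable F) {K : ℝ}
    (hK : ∀ x, |F x| ≤ K) (hi : MeasureTheory.IntegrableOn (fun x => |F x| ^ 3)
      (Set.Ici (0 : ℝ) ×ˢ Set.Ici (0 : ℝ))) :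
    ((2 : ℝ) ^ m) ^ 2 * ∫ t in Set.Ico (0 : ℝ) 1 ×ˢ Set.Ico (0 : ℝ) 1,
      ∑ i ∈ range M, ∑ j ∈ range M,
        |F ((2 : ℝ) ^ m * (i + t.1), (2 : ℝ) ^ m * (j + t.2))| ^ 3 ≤ cube F := by
  sorry

theorem transfer (m : ℤ) (N : ℕ) {F₀ F₁ F₂ : ℝ × ℝ → ℝ} (h₀ : Measurable F₀)
    (h₁ : Measurable F₁) (h₂ : Measurable F₂) {K : ℝ} (b₀ : ∀ x, |F₀ x| ≤ K)
    (b₁ : ∀ x, |F₁ x| ≤ K) (b₂ : ∀ x, |F₂ x| ≤ K)
    (i₀ : MeasureTheory.IntegrableOn (fun x => |F₀ x| ^ 3) (Set.Ici (0 : ℝ) ×ˢ Set.Ici (0 : ℝ)))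
    (i₁ : MeasureTheory.IntegrableOn (fun x => |F₁ x| ^ 3) (Set.Ici (0 : ℝ) ×ˢ Set.Ici (0 : ℝ)))
    (i₂ : MeasureTheory.IntegrableOn (fun x => |F₂ x| ^ 3)
      (Set.Ici (0 : ℝ) ×ˢ Set.Ici (0 : ℝ))) :
    ∑ k ∈ range N, ∑ i ∈ range (2 ^ (N - (k + 1))), ∑ j ∈ range (2 ^ (N - (k + 1))),
      |L (m + (k + 1)) (i, j, i ^^^ j) F₀ F₁ F₂| ≤ 48 * (cube F₀ + cube F₁ + cube F₂) := by
  sorry

end P075.Skel
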